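import Vale.Agent.P032.H617.BD.R0
import Vale.Agent.P032.H617.BD.R1
import Vale.Agent.P032.H617.BD.R2
import Vale.Agent.P032.H617.BD.R3
import Vale.Agent.P032.H617.BD.R4
import Vale.Agent.P032.H617.BD.R5
import Vale.Agent.P032.H617.BD.R6
import Vale.Agent.P032.H617.BD.R7
import Vale.Agent.P032.H617.BD.R8
import Vale.Agent.P032.H617.BD.R9
import Vale.Agent.P032.H617.BD.R10
import Vale.Agent.P032.H617.BD.R11
import Vale.Agent.P032.H617.BD.R12
import Vale.Agent.P032.H617.BD.R13
import Vale.Agent.P032.H617.BD.R14
import Vale.Agent.P032.H617.BD.R15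
import Vale.Agent.P032.H617.BD.R16
import Vale.Agent.P032.H617.BD.R17
import Vale.Agent.P032.H617.BD.R18
import Vale.Agent.P032.H617.BD.R19
import Vale.Agent.P032.H617.BD.R20
import Vale.Agent.P032.H617.BD.R21
import Vale.Agent.P032.H617.BD.R22
import Vale.Agent.P032.H617.BD.R23
import Vale.Agent.P032.H617.BD.R24
import Vale.Agent.P032.H617.BD.R25
import Vale.Agent.P032.H617.BD.R26
import Vale.Agent.P032.H617.BD.R27
import Vale.Agent.P032.H617.BD.R28
import Vale.Agent.P032.H617.BD.R29
import Vale.Agent.P032.H617.BD.R30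
import Vale.Agent.P032.H617.BD.R31
import Vale.Agent.P032.H617.BD.C0
import Vale.Agent.P032.H617.BD.C1
import Vale.Agent.P032.H617.BD.C2
import Vale.Agent.P032.H617.BD.C3
import Vale.Agent.P032.H617.BD.C4
import Vale.Agent.P032.H617.BD.C5
import Vale.Agent.P032.H617.BD.C6
import Vale.Agent.P032.H617.BD.C7

/-!
# P032: the steps which are not `NsC`, from the certificate

`hS617` : a step from one of the 57 columns which is not `NsC` ends in a column of the list.
-/

namespace Vale.Agent.P032.H617.BD
open Vale.Agent.P032.H859.Rup Vale.Agent.P032.H617.BS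
open Vale.Agent.P032.H184 (N mk)
open Vale.Agent.P032.H158 Vale.Agent.P032.H728 Vale.Agent.P032.H623 Vale.Agent.P032.H437.Wt

theorem allb_n {g : Nat → Nat → Nat → Bool} {a b : Tr} (ha : allb g a = true)
    (hb : allb g b = true) : allb g (Tr.n a b) = true := by
  show (Bool.rec (motive := fun _ => Bool) false (allb g b) (allb g a)) = true
  rw [ha]; exact hb

theorem r4_0 : run E L 7077 e4_0 0 16 = true := run_n r5_0 r5_16

theorem r4_1 : run E L 7077 e4_1 1 16 = true := run_n r5_1 r5_17

theorem r4_2 : run E L 7077 e4_2 2 16 = true := run_n r5_2 r5_18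

theorem r4_3 : run E L 7077 e4_3 3 16 = true := run_n r5_3 r5_19

theorem r4_4 : run E L 7077 e4_4 4 16 = true := run_n r5_4 r5_20

theorem r4_5 : run E L 7077 e4_5 5 16 = true := run_n r5_5 r5_21

theorem r4_6 : run E L 7077 e4_6 6 16 = true := run_n r5_6 r5_22

theorem r4_7 : run E L 7077 e4_7 7 16 = true := run_n r5_7 r5_23

theorem r4_8 : run E L 7077 e4_8 8 16 = true := run_n r5_8 r5_24

theorem r4_9 : run E L 7077 e4_9 9 16 = true := run_n r5_9 r5_25

theorem r4_10 : run E L 7077 e4_10 10 16 = true := run_n r5_10 r5_26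

theorem r4_11 : run E L 7077 e4_11 11 16 = true := run_n r5_11 r5_27

theorem r4_12 : run E L 7077 e4_12 12 16 = true := run_n r5_12 r5_28

theorem r4_13 : run E L 7077 e4_13 13 16 = true := run_n r5_13 r5_29

theorem r4_14 : run E L 7077 e4_14 14 16 = true := run_n r5_14 r5_30

theorem r4_15 : run E L 7077 e4_15 15 16 = true := run_n r5_15 r5_31

theorem r3_0 : run E L 7077 e3_0 0 8 = true := run_n r4_0 r4_8

theorem r3_1 : run E L 7077 e3_1 1 8 = true := run_n r4_1 r4_9

theorem r3_2 : run E L 7077 e3_2 2 8 = true := run_n r4_2 r4_10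

theorem r3_3 : run E L 7077 e3_3 3 8 = true := run_n r4_3 r4_11

theorem r3_4 : run E L 7077 e3_4 4 8 = true := run_n r4_4 r4_12

theorem r3_5 : run E L 7077 e3_5 5 8 = true := run_n r4_5 r4_13

theorem r3_6 : run E L 7077 e3_6 6 8 = true := run_n r4_6 r4_14

theorem r3_7 : run E L 7077 e3_7 7 8 = true := run_n r4_7 r4_15

theorem r2_0 : run E L 7077 e2_0 0 4 = true := run_n r3_0 r3_4

theorem r2_1 : run E L 7077 e2_1 1 4 = true := run_n r3_1 r3_5

theorem r2_2 : run E L 7077 e2_2 2 4 = true := run_n r3_2 r3_6

theorem r2_3 : run E L 7077 e2_3 3 4 = true := run_n r3_3 r3_7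

theorem r1_0 : run E L 7077 e1_0 0 2 = true := run_n r2_0 r2_2

theorem r1_1 : run E L 7077 e1_1 1 2 = true := run_n r2_1 r2_3

theorem r0_0 : run E L 7077 e0_0 0 1 = true := run_n r1_0 r1_1

theorem a2_0 : allb tst cb2_0 = true := allb_n a3_0 a3_4

theorem a2_1 : allb tst cb2_1 = true := allb_n a3_1 a3_5

theorem a2_2 : allb tst cb2_2 = true := allb_n a3_2 a3_6

theorem a2_3 : allb tst cb2_3 = true := allb_n a3_3 a3_7

theorem a1_0 : allb tst cb1_0 = true := allb_n a2_0 a2_2

theorem a1_1 : allb tst cb1_1 = true := allb_n a2_1 a2_3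

theorem a0_0 : allb tst cb0_0 = true := allb_n a1_0 a1_1

/-- the number of the learned clause of each column -/
def gl : List ℕ := [
  20, 30, 36, 40, 44, 87, 104, 108, 123, 164, 175, 183,
  194, 203, 218, 231, 235, 247, 259, 306, 341, 387, 429, 484,
  605, 827, 868, 892, 926, 1070, 1101, 1149, 1211, 1226, 1250, 1330,
  1358, 1468, 1605, 1620, 1630, 1647, 1688, 1745, 1798, 1847, 1862, 1938,
  2023, 2171, 2423, 2589, 2592, 2885, 3384, 3517, 6260]

/-- the test of the goals -/
noncomputable def chkG : ℕ → List ℕ → Bool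
  | _, [] => true
  | k, g :: l => Nat.beq (getC db g) (mk [N (vG k)]) && chkG (k + 1) l

theorem chkG_spec : ∀ (l : List ℕ) (k0 k : ℕ), chkG k0 l = true → k < l.length →
    getC db (l.getD k 0) = mk [N (vG (k0 + k))]
  | [], _, _, _, hk => absurd hk (Nat.not_lt_zero _)
  | g :: l, k0, 0, h, _ => by
    unfold chkG at h
    rw [Bool.and_eq_true] at h
    exact Nat.eq_of_beq_eq_true h.1
  | g :: l, k0, k + 1, h, hk => by
    unfold chkG at h
    rw [Bool.and_eq_true] at h
    have := chkG_spec l (k0 + 1) k h.2 (Nat.lt_of_succ_lt_succ hk)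
    rw [show k0 + 1 + k = k0 + (k + 1) by omega] at this
    exact this

theorem chkG_gl : chkG 0 gl = true := by decide +kernel

theorem m0 : (12301231032, q0) ∈ rows := by
  unfold rows rows0; simp

theorem m1 : (12301241032, q1) ∈ rows := by
  unfold rows rows1; simp

theorem m2 : (12301241042, q2) ∈ rows := by
  unfold rows rows2; simp

theorem m3 : (12301243042, q3) ∈ rows := by
  unfold rows rows3; simp

theorem m4 : (12301321024, q4) ∈ rows := by
  unfold rows rows4; simp

theorem m5 : (12301321032, q5) ∈ rows := by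
  unfold rows rows5; simp

theorem m6 : (12301321034, q6) ∈ rows := by
  unfold rows rows6; simp

theorem m7 : (12301321042, q7) ∈ rows := by
  unfold rows rows7; simp

theorem m8 : (12301321043, q8) ∈ rows := by
  unfold rows rows0; simp

theorem m9 : (12301321045, q9) ∈ rows := by
  unfold rows rows1; simp

theorem m10 : (12301341032, q10) ∈ rows := by
  unfold rows rows2; simp

theorem m11 : (12301341043, q11) ∈ rows := by
  unfold rows rows3; simp

theorem m12 : (12301341243, q12) ∈ rows := by
  unfold rows rows4; simp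

theorem m13 : (12301421024, q13) ∈ rows := by
  unfold rows rows5; simp

theorem m14 : (12301421032, q14) ∈ rows := by
  unfold rows rows6; simp

theorem m15 : (12301423024, q15) ∈ rows := by
  unfold rows rows7; simp

theorem m16 : (12301431032, q16) ∈ rows := by
  unfold rows rows0; simp

theorem m17 : (12301431034, q17) ∈ rows := by
  unfold rows rows1; simp

theorem m18 : (12301431234, q18) ∈ rows := by
  unfold rows rows2; simp

theorem m19 : (12301451032, q19) ∈ rows := by
  unfold rows rows3; simp

theorem m20 : (12301451054, q20) ∈ rows := by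
  unfold rows rows4; simp

theorem m21 : (12301451254, q21) ∈ rows := by
  unfold rows rows5; simp

theorem m22 : (12301453054, q22) ∈ rows := by
  unfold rows rows6; simp

theorem m23 : (12301453254, q23) ∈ rows := by
  unfold rows rows7; simp

theorem m24 : (12304123042, q24) ∈ rows := by
  unfold rows rows0; simp

theorem m25 : (12304123045, q25) ∈ rows := by
  unfold rows rows1; simp

theorem m26 : (12304123542, q26) ∈ rows := by
  unfold rows rows2; simp

theorem m27 : (12304124032, q27) ∈ rows := by
  unfold rows rows3; simp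

theorem m28 : (12304134032, q28) ∈ rows := by
  unfold rows rows4; simp

theorem m29 : (12304153042, q29) ∈ rows := by
  unfold rows rows5; simp

theorem m30 : (12304153045, q30) ∈ rows := by
  unfold rows rows6; simp

theorem m31 : (12304153245, q31) ∈ rows := by
  unfold rows rows7; simp

theorem m32 : (12304154032, q32) ∈ rows := by
  unfold rows rows0; simp

theorem m33 : (12304154053, q33) ∈ rows := by
  unfold rows rows1; simp

theorem m34 : (12304154253, q34) ∈ rows := by
  unfold rows rows2; simp

theorem m35 : (12304321035, q35) ∈ rows := by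
  unfold rows rows3; simp

theorem m36 : (12304321042, q36) ∈ rows := by
  unfold rows rows4; simp

theorem m37 : (12304321043, q37) ∈ rows := by
  unfold rows rows5; simp

theorem m38 : (12304321045, q38) ∈ rows := by
  unfold rows rows6; simp

theorem m39 : (12304354032, q39) ∈ rows := by
  unfold rows rows7; simp

theorem m40 : (12304354053, q40) ∈ rows := by
  unfold rows rows0; simp

theorem m41 : (12304354253, q41) ∈ rows := by
  unfold rows rows1; simp

theorem m42 : (12304531035, q42) ∈ rows := by
  unfold rows rows2; simp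

theorem m43 : (12304531045, q43) ∈ rows := by
  unfold rows rows3; simp

theorem m44 : (12304531235, q44) ∈ rows := by
  unfold rows rows4; simp

theorem m45 : (12304531245, q45) ∈ rows := by
  unfold rows rows5; simp

theorem m46 : (12310345043, q46) ∈ rows := by
  unfold rows rows6; simp

theorem m47 : (12310345243, q47) ∈ rows := by
  unfold rows rows7; simp

theorem m48 : (12310435134, q48) ∈ rows := by
  unfold rows rows0; simp

theorem m49 : (12310435234, q49) ∈ rows := by
  unfold rows rows1; simp

theorem m50 : (12310453254, q50) ∈ rows := by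
  unfold rows rows2; simp

theorem m51 : (12314305243, q51) ∈ rows := by
  unfold rows rows3; simp

theorem m52 : (12314354052, q52) ∈ rows := by
  unfold rows rows4; simp

theorem m53 : (12314503145, q53) ∈ rows := by
  unfold rows rows5; simp

theorem m54 : (12314503245, q54) ∈ rows := by
  unfold rows rows6; simp

theorem m55 : (12340521435, q55) ∈ rows := by
  unfold rows rows7; simp

theorem m56 : (12345103254, q56) ∈ rows := by
  unfold rows rows0; simp

theorem mQ {k : ℕ} (hk : k < 57) : (c57 k, Q k) ∈ rows := by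
  interval_cases k
  exacts [m0, m1, m2, m3, m4, m5, m6, m7, m8, m9, m10, m11, m12, m13, m14, m15, m16, m17, m18, m19,
     m20, m21, m22, m23, m24, m25, m26, m27, m28, m29, m30, m31, m32, m33, m34, m35, m36, m37, m38, m39,
     m40, m41, m42, m43, m44, m45, m46, m47, m48, m49, m50, m51, m52, m53, m54, m55, m56]

theorem c57_surj {c : ℕ} (h : c ∈ L57) : ∃ k < 57, c57 k = c := by
  obtain ⟨k, hk, e⟩ := List.mem_iff_getElem.1 h
  refine ⟨k, ?_, ?_⟩
  · exact hk
  · unfold c57
    rw [List.getD_eq_getElem _ _ hk, e]

/-- **a step from one of the 57 columns which is not `NsC` ends in a column of the list** -/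
theorem hS617 : ∀ c ∈ L57, ∀ s s', StepC All Et s s' → IsCol s.1 c → ¬ NsC s.1 s'.1 →
    ∃ q ∈ lst c, IsCol s'.1 q := by
  intro c hc s s' h hs hn
  obtain ⟨k, hk, rfl⟩ := c57_surj hc
  by_contra hcon
  push Not at hcon
  have h1 := learned_bs (D := db) h hn hE a0_0 r0_0 (gl.getD k 0)
  have h2 := chkG_spec gl 0 k chkG_gl hk
  rw [Nat.zero_add] at h2
  exact notG h2 h1 ⟨hs, fun q hq => hcon q (mem_lst.2 ⟨_, mQ hk, hq⟩)⟩

end Vale.Agent.P032.H617.BD
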